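import Vale.Agent.P158.Tube.Main

/-!
# Basics of planar first-passage percolation (P158)

Translations, almost sure distinct sums, existence and uniqueness of finite geodesics and the
passage time.
-/

noncomputable section

namespace Vale.Agent.P158.Full

open Finset MeasureTheory ProbabilityTheory Filter Vale.Agent.P158.Tube
open scoped Classical ENNReal Topology

variable {ω : Sym2 V → ℝ}

/-- The weights seen from `v`. -/
def translate (v : V) (ω : Sym2 V → ℝ) : Sym2 V → ℝ := fun e => ω (Sym2.map (· + v) e)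

theorem measurable_translate (v : V) : Measurable (translate v) :=
  measurable_pi_lambda _ fun _ => measurable_pi_apply _

theorem Adj.add {a b : V} (h : Adj a b) (v : V) : Adj (a + v) (b + v) := by
  unfold Adj at *; simpa using h

theorem cost_translate (v : V) (ω : Sym2 V → ℝ) (p : ℕ → V) (m : ℕ) :
    cost (translate v ω) p m = cost ω (fun k => p k + v) m := rfl

theorem geo_translate {v : V} {p : ℕ → V} {m : ℕ} :
    Geo (translate v ω) p m ↔ Geo ω (fun k => p k + v) m := by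
  refine ⟨fun h q l h0 hl hw => ?_, fun h q l h0 hl hw => ?_⟩
  · have := h (fun k => q k - v) l (by simp [h0]) (by simp [hl])
      (fun k hk => by simpa [sub_eq_add_neg] using Adj.add (hw k hk) (-v))
    simpa [cost_translate] using this
  · exact h (fun k => q k + v) l (by simp [h0]) (by simp [hl]) fun k hk => Adj.add (hw k hk) v

/-- The walk `p` followed by `q`. -/
def app (p : ℕ → V) (m : ℕ) (q : ℕ → V) : ℕ → V := fun k => if k ≤ m then p k else q (k - m)

theorem app_left {p q : ℕ → V} {m k : ℕ} (h : k ≤ m) : app p m q k = p k := if_pos h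

theorem app_right {p q : ℕ → V} {m : ℕ} (h : q 0 = p m) (j : ℕ) : app p m q (m + j) = q j := by
  rcases Nat.eq_zero_or_pos j with rfl | hj
  · rw [add_zero, app_left le_rfl, h]
  · rw [app, if_neg (by omega), Nat.add_sub_cancel_left]

theorem isWalk_app {p q : ℕ → V} {m l : ℕ} (hp : IsWalk p m) (hq : IsWalk q l) (h : q 0 = p m) :
    IsWalk (app p m q) (m + l) := by
  intro k hk
  by_cases hkm : k < m
  · rw [app_left hkm.le, app_left hkm]; exact hp k hkm
  · obtain ⟨j, rfl⟩ := Nat.exists_eq_add_of_le (not_lt.1 hkm)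
    rw [app_right h, show m + j + 1 = m + (j + 1) by omega, app_right h]
    exact hq j (by omega)

theorem cost_add (ω : Sym2 V → ℝ) (p : ℕ → V) (i j : ℕ) :
    cost ω p (i + j) = cost ω p i + cost ω (fun k => p (i + k)) j := by
  simp only [cost, Finset.sum_range_add, add_assoc]

theorem cost_congr {p q : ℕ → V} {m : ℕ} (h : ∀ k ≤ m, p k = q k) : cost ω p m = cost ω q m :=
  Finset.sum_congr rfl fun k hk => by
    rw [Finset.mem_range] at hk
    rw [h k hk.le, h (k + 1) hk]

theorem cost_app {p q : ℕ → V} {m l : ℕ} (h : q 0 = p m) :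
    cost ω (app p m q) (m + l) = cost ω p m + cost ω q l := by
  rw [cost_add]
  congr 1
  · exact cost_congr fun k hk => app_left hk
  · exact cost_congr fun k _ => app_right h k

theorem cost_nonneg (hω : ∀ e, 0 ≤ ω e) (p : ℕ → V) (m : ℕ) : 0 ≤ cost ω p m :=
  Finset.sum_nonneg fun _ _ => hω _

/-- Pieces of geodesics are geodesics. -/
theorem Geo.piece {p : ℕ → V} {m i l : ℕ} (h : Geo ω p m) (hp : IsWalk p m) (hil : i + l ≤ m) :
    Geo ω (fun k => p (i + k)) l := by
  intro q n h0 hn hw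
  obtain ⟨r, rfl⟩ := Nat.exists_eq_add_of_le hil
  simp only [add_zero] at h0
  have hq : q 0 = p i := h0
  have hw1 : IsWalk (app p i q) (i + n) := isWalk_app (fun k hk => hp k (by omega)) hw hq
  have h2 : (fun k => p (i + l + k)) 0 = app p i q (i + n) := by
    rw [app_right hq]; simpa using hn.symm
  have := h (app (app p i q) (i + n) (fun k => p (i + l + k))) (i + n + r)
    (by rw [app_left (Nat.zero_le _), app_left (Nat.zero_le _)]) (by rw [app_right h2])
    (isWalk_app hw1 (fun k hk => by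
      simpa [add_assoc] using hp (i + l + k) (by omega)) h2)
  rw [cost_app h2, cost_app hq, cost_add ω p (i + l), cost_add ω p i] at this
  linarith

/-- Loop erasure does not increase the cost. -/
theorem exists_simple (hω : ∀ e, 0 ≤ ω e) (l : ℕ) : ∀ q : ℕ → V, IsWalk q l →
    ∃ (p : ℕ → V) (m : ℕ), p 0 = q 0 ∧ p m = q l ∧ IsWalk p m ∧
      Set.InjOn p (Set.Iic m) ∧ cost ω p m ≤ cost ω q l := by
  induction l using Nat.strong_induction_on with
  | _ l ih =>
    intro q hq
    by_cases hinj : Set.InjOn q (Set.Iic l)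
    · exact ⟨q, l, rfl, rfl, hq, hinj, le_rfl⟩
    simp only [Set.InjOn, Set.mem_Iic] at hinj
    push Not at hinj
    obtain ⟨i, hi, j, hj, heq, hne⟩ := hinj
    wlog hij : i < j generalizing i j
    · exact this j hj i hi heq.symm hne.symm (by omega)
    have h0 : (fun k => q (j + k)) 0 = q i := by simp [heq]
    obtain ⟨r, rfl⟩ := Nat.exists_eq_add_of_le hj
    obtain ⟨p, m, hp0, hpm, hpw, hpi, hpc⟩ := ih (i + r) (by omega) (app q i fun k => q (j + k))
      (isWalk_app (fun k hk => hq k (by omega)) (fun k hk => by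
        simpa [add_assoc] using hq (j + k) (by omega)) h0)
    refine ⟨p, m, by rw [hp0, app_left (Nat.zero_le _)], by rw [hpm, app_right h0], hpw, hpi,
      hpc.trans ?_⟩
    obtain ⟨d, rfl⟩ := Nat.exists_eq_add_of_le hij.le
    rw [cost_app h0, cost_add ω q (i + d), cost_add ω q i]
    linarith [cost_nonneg hω (fun k => q (i + k)) d]

theorem exists_walk (x y : V) : ∃ (q : ℕ → V) (l : ℕ), q 0 = x ∧ q l = y ∧ IsWalk q l := by
  suffices ∀ n : ℕ, ∀ x : V, (y.1 - x.1).natAbs + (y.2 - x.2).natAbs = n →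
      ∃ (q : ℕ → V) (l : ℕ), q 0 = x ∧ q l = y ∧ IsWalk q l from this _ x rfl
  intro n
  induction n with
  | zero =>
    intro x h
    exact ⟨fun _ => x, 0, rfl, Prod.ext (by simp only; omega) (by simp only; omega), fun k hk => absurd hk (by omega)⟩
  | succ n ih =>
    intro x h
    obtain ⟨z, hz, hzn⟩ : ∃ z : V, Adj x z ∧
        (y.1 - z.1).natAbs + (y.2 - z.2).natAbs = n := by
      rcases lt_trichotomy x.1 y.1 with h1 | h1 | h1
      · exact ⟨(x.1 + 1, x.2), by simp [Adj], by simp only; omega⟩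
      · rcases lt_or_ge x.2 y.2 with h2 | h2
        · exact ⟨(x.1, x.2 + 1), by simp [Adj], by simp only; omega⟩
        · exact ⟨(x.1, x.2 - 1), by simp [Adj], by simp only; omega⟩
      · exact ⟨(x.1 - 1, x.2), by simp [Adj], by simp only; omega⟩
    obtain ⟨q, l, hq0, hql, hqw⟩ := ih z hzn
    let f : ℕ → V := fun k => if k = 0 then x else z
    have hf : q 0 = f 1 := by simp [f, hq0]
    refine ⟨app f 1 q, 1 + l, by simp [app, f], by rw [app_right hf, hql],
      isWalk_app (fun k hk => ?_) hqw hf⟩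
    obtain rfl : k = 0 := by omega
    simpa [f] using hz

/-- The edges of a walk. -/
def edgesOf (p : ℕ → V) (m : ℕ) : Finset (Sym2 V) :=
  (range m).image fun k => s(p k, p (k + 1))

theorem sum_edgesOf {p : ℕ → V} {m : ℕ} (hp : Set.InjOn p (Set.Iic m)) :
    ∑ e ∈ edgesOf p m, ω e = cost ω p m :=
  Finset.sum_image ((injOn_edge hp).mono fun _ hk => Finset.mem_range.1 hk)

/-- An injective path is determined by its start and its edges. -/
theorem eq_of_edgesOf {p q : ℕ → V} {m l : ℕ} (hp : Set.InjOn p (Set.Iic m))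
    (hq : Set.InjOn q (Set.Iic l)) (h0 : p 0 = q 0) (h : edgesOf p m = edgesOf q l) :
    m = l ∧ ∀ k ≤ m, p k = q k := by
  have key : ∀ {p q : ℕ → V} {m l : ℕ}, Set.InjOn p (Set.Iic m) → Set.InjOn q (Set.Iic l) →
      p 0 = q 0 → edgesOf p m ⊆ edgesOf q l → ∀ k ≤ m, k ≤ l ∧ p k = q k := by
    intro p q m l hp hq h0 h k
    induction k using Nat.strong_induction_on with
    | _ k ih =>
      intro hk
      rcases Nat.eq_zero_or_pos k with rfl | hk0
      · exact ⟨Nat.zero_le _, h0⟩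
      obtain ⟨k, rfl⟩ := Nat.exists_eq_add_of_le' hk0
      obtain ⟨hkl, hk'⟩ := ih k (by omega) (by omega)
      obtain ⟨j, hj, he⟩ := Finset.mem_image.1
        (h (Finset.mem_image.2 ⟨k, Finset.mem_range.2 (by omega), rfl⟩))
      rw [Finset.mem_range] at hj
      rcases Sym2.eq_iff.1 he with ⟨h1, h2⟩ | ⟨h1, h2⟩
      · obtain rfl := hq (show j ≤ l by omega) (show k ≤ l from hkl) (h1.trans hk')
        exact ⟨hj, h2.symm⟩
      · obtain rfl := hq (show j + 1 ≤ l by omega) (show k ≤ l from hkl) (h2.trans hk')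
        have := hp (show j ≤ m by omega) (show j + 1 + 1 ≤ m by omega)
          (((ih j (by omega) (by omega)).2).trans h1)
        omega
  have h1 := key hp hq h0 h.le m le_rfl
  have h2 := key hq hp h0.symm h.ge l le_rfl
  exact ⟨le_antisymm h1.1 h2.1, fun k hk => (key hp hq h0 h.le k hk).2⟩

/-- The passage time. -/
def T (ω : Sym2 V → ℝ) (x y : V) : ℝ :=
  ⨅ c : {q : Σ l : ℕ, Fin l → Fin 4 // walkOf x q.2 q.1 = y ∧ IsWalk (walkOf x q.2) q.1},
    cost ω (walkOf x c.1.2) c.1.1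

theorem measurable_cost (p : ℕ → V) (m : ℕ) : Measurable fun ω : Sym2 V → ℝ => cost ω p m :=
  Finset.measurable_sum _ fun _ _ => measurable_pi_apply _

theorem measurable_T (x y : V) : Measurable fun ω : Sym2 V → ℝ => T ω x y :=
  Measurable.iInf fun _ => measurable_cost _ _

theorem nonempty_T (x y : V) :
    Nonempty {q : Σ l : ℕ, Fin l → Fin 4 // walkOf x q.2 q.1 = y ∧ IsWalk (walkOf x q.2) q.1} := by
  obtain ⟨q, l, h0, hl, hw⟩ := exists_walk x y
  obtain ⟨d, hd⟩ := exists_walkOf hw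
  subst h0
  refine ⟨⟨⟨l, d⟩, by rw [hd l le_rfl, hl], fun k hk => ?_⟩⟩
  rw [hd k hk.le, hd (k + 1) hk]
  exact hw k hk

theorem T_le (hω : ∀ e, 0 ≤ ω e) {q : ℕ → V} {l : ℕ} (hw : IsWalk q l) :
    T ω (q 0) (q l) ≤ cost ω q l := by
  obtain ⟨d, hd⟩ := exists_walkOf hw
  have hw' : IsWalk (walkOf (q 0) d) l := fun k hk => by
    rw [hd k hk.le, hd (k + 1) hk]; exact hw k hk
  refine le_trans (ciInf_le ⟨0, ?_⟩ ⟨⟨l, d⟩, hd l le_rfl, hw'⟩) (le_of_eq (cost_congr hd))
  rintro _ ⟨c, rfl⟩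
  exact cost_nonneg hω _ _

theorem le_T {x y : V} {a : ℝ}
    (h : ∀ (q : ℕ → V) (l : ℕ), q 0 = x → q l = y → IsWalk q l → a ≤ cost ω q l) : a ≤ T ω x y :=
  haveI := nonempty_T x y
  le_ciInf fun c => h _ _ rfl c.2.1 c.2.2

theorem geo_iff (hω : ∀ e, 0 ≤ ω e) {p : ℕ → V} {m : ℕ} (hp : IsWalk p m) :
    Geo ω p m ↔ cost ω p m = T ω (p 0) (p m) :=
  ⟨fun h => le_antisymm (le_T h) (T_le hω hp),
    fun h q l h0 hl hw => h ▸ h0 ▸ hl ▸ T_le hω hw⟩

theorem T_triangle (hω : ∀ e, 0 ≤ ω e) (x y z : V) : T ω x z ≤ T ω x y + T ω y z := by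
  suffices h : T ω x z - T ω x y ≤ T ω y z by linarith
  refine le_T fun q l hq0 hql hqw => ?_
  suffices h : T ω x z - cost ω q l ≤ T ω x y by linarith
  refine le_T fun p m hp0 hpm hpw => ?_
  have h : q 0 = p m := hq0.trans hpm.symm
  have := T_le hω (isWalk_app hpw hqw h)
  rw [app_left (Nat.zero_le m), app_right h, hp0, hql, cost_app h] at this
  linarith

variable (G : Measure ℝ) [IsProbabilityMeasure G]

theorem law_translate (v : V) : (law G).map (translate v) = law G :=
  Measure.map_infinitePi_infinitePi_of_inj (Sym2.map.injective (add_left_injective v))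

theorem measurePreserving_translate (v : V) : MeasurePreserving (translate v) (law G) (law G) :=
  ⟨measurable_translate v, law_translate G v⟩

variable [NullSingletonClass G]

theorem ae_pos (h0 : G (Set.Iio 0) = 0) : ∀ᵐ ω ∂law G, ∀ e, 0 < ω e := by
  refine ae_all_iff.2 fun e => ?_
  have hG : ∀ᵐ x ∂G, 0 < x := by
    rw [ae_iff, show {x : ℝ | ¬ 0 < x} = Set.Iio 0 ∪ {0} by ext x; simp [le_iff_lt_or_eq]]
    exact measure_union_null h0 (measure_singleton 0)
  exact (measurePreserving_eval_infinitePi (fun _ : Sym2 V => G) e).quasiMeasurePreserving.ae hG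

/-- Two different finite sets of edges have different sums. -/
theorem ae_sums_ne :
    ∀ᵐ ω ∂law G, ∀ S U : Finset (Sym2 V), S ≠ U → ∑ e ∈ S, ω e ≠ ∑ e ∈ U, ω e := by
  refine ae_all_iff.2 fun S => ae_all_iff.2 fun U => ?_
  suffices key : ∀ S U : Finset (Sym2 V), ∀ a ∈ S, a ∉ U →
      ∀ᵐ ω ∂law G, ∑ e ∈ S, ω e ≠ ∑ e ∈ U, ω e by
    by_cases hSU : S = U
    · exact Eventually.of_forall fun ω h => absurd hSU h
    · obtain ⟨a, ha⟩ : ∃ a, ¬(a ∈ S ↔ a ∈ U) := by
        by_contra h; push Not at h; exact hSU (Finset.ext h)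
      by_cases haS : a ∈ S
      · filter_upwards [key S U a haS fun h => ha ⟨fun _ => h, fun _ => haS⟩] with ω h _ using h
      · filter_upwards [key U S a (by tauto) haS] with ω h _ using h.symm
  intro S U a haS haU
  have hi : iIndepFun (fun e (ω : Sym2 V → ℝ) => ω e) (law G) :=
    iIndepFun_infinitePi (X := fun _ x => x) fun _ => measurable_id
  set R := S.erase a ∪ U with hR
  have hd : Disjoint ({a} : Finset (Sym2 V)) R := by simp [hR, haU]
  let g : (R → ℝ) → ℝ := fun z => ∑ e ∈ U, Tube.extend R z e - ∑ e ∈ S.erase a, Tube.extend R z e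
  have hg : Measurable g :=
    (Finset.measurable_sum _ fun e _ => (measurable_pi_apply e).comp (measurable_extend R)).sub
      (Finset.measurable_sum _ fun e _ => (measurable_pi_apply e).comp (measurable_extend R))
  have hI := (hi.indepFun_finset {a} R hd fun e => measurable_pi_apply e).comp
    (measurable_pi_apply (⟨a, Finset.mem_singleton_self a⟩ : ({a} : Finset (Sym2 V)))) hg
  set X : (Sym2 V → ℝ) → ℝ := fun ω => ω a
  set Y : (Sym2 V → ℝ) → ℝ := fun ω => g fun i : R => ω i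
  have hX : Measurable X := measurable_pi_apply a
  have hY : Measurable Y := hg.comp (measurable_pi_lambda _ fun i => measurable_pi_apply _)
  have hjoint := (indepFun_iff_map_prod_eq_prod_map_map hX.aemeasurable hY.aemeasurable).1 hI
  have hXG : (law G).map X = G := (measurePreserving_eval_infinitePi (fun _ : Sym2 V => G) a).map_eq
  have hD : MeasurableSet {z : ℝ × ℝ | z.1 = z.2} := measurableSet_eq_fun measurable_fst measurable_snd
  have hnull : law G {ω | X ω = Y ω} = 0 := by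
    have e : {ω | X ω = Y ω} = (fun ω => (X ω, Y ω)) ⁻¹' {z : ℝ × ℝ | z.1 = z.2} := rfl
    rw [e, ← Measure.map_apply (hX.prodMk hY) hD, hjoint, hXG,
      Measure.prod_apply_symm hD]
    simp [Set.preimage]
  filter_upwards [show ∀ᵐ ω ∂law G, X ω ≠ Y ω by rw [ae_iff]; simpa using hnull] with ω hne heq
  refine hne ?_
  have hU : ∀ e ∈ U, Tube.extend R (fun i : R => ω i) e = ω e := fun e he => by simp [Tube.extend, hR, he]
  have hS : ∀ e ∈ S.erase a, Tube.extend R (fun i : R => ω i) e = ω e := fun e he => by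
    simp [Tube.extend, hR, Finset.mem_union, he]
  simp only [X, Y, g]
  rw [Finset.sum_congr rfl hU, Finset.sum_congr rfl hS, ← heq, ← Finset.add_sum_erase S _ haS]
  ring

/-- Long self-avoiding walks are expensive. -/
theorem ae_long_expensive (h0 : G (Set.Iio 0) = 0) :
    ∃ a : ℝ, 0 < a ∧ ∀ᵐ ω ∂law G, ∀ v : V, ∃ M : ℕ, ∀ m ≥ M, ∀ p : ℕ → V,
      p 0 = v → IsWalk p m → Set.InjOn p (Set.Iic m) → a * m ≤ cost ω p m := by
  obtain ⟨r, δ, hr, hδ, -, hq, -, -⟩ := exists_levels G h0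
  set a := r + 2 * δ
  have ha : 0 < a := by positivity
  refine ⟨a / 2, half_pos ha, ?_⟩
  let E : V → ℕ → Set (Sym2 V → ℝ) := fun v m => ⋃ d : Fin m → Fin 4, ⋃ S ∈ (range m).powerset,
    {ω | (m ≤ 2 * S.card ∧ Set.InjOn (walkOf v d) (Set.Iic m)) ∧
      ∀ k ∈ S, ω s(walkOf v d k, walkOf v d (k + 1)) ≤ a}
  have hE : ∀ v m, law G (E v m) ≤ (1 / 2 : ℝ≥0∞) ^ m := by
    intro v m
    have hS : ∀ (d : Fin m → Fin 4), ∀ S ∈ (range m).powerset,
        law G {ω | (m ≤ 2 * S.card ∧ Set.InjOn (walkOf v d) (Set.Iic m)) ∧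
          ∀ k ∈ S, ω s(walkOf v d k, walkOf v d (k + 1)) ≤ a} ≤ (1 / 16 : ℝ≥0∞) ^ m := by
      intro d S hS
      by_cases hc : m ≤ 2 * S.card ∧ Set.InjOn (walkOf v d) (Set.Iic m)
      · rw [show {ω : Sym2 V → ℝ | (m ≤ 2 * S.card ∧ Set.InjOn (walkOf v d) (Set.Iic m)) ∧
            ∀ k ∈ S, ω s(walkOf v d k, walkOf v d (k + 1)) ≤ a} =
            {ω | ∀ e ∈ S.image fun k => s(walkOf v d k, walkOf v d (k + 1)), ω e ≤ a} from
          Set.ext fun ω => by simp [hc]]
        rw [law_le_all, Finset.card_image_of_injOn ((injOn_edge hc.2).mono fun k hk =>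
          Finset.mem_range.1 (Finset.mem_powerset.1 hS hk))]
        calc G (Set.Iic a) ^ S.card ≤ ((1 / 16) ^ 2) ^ S.card := pow_le_pow_left' hq _
          _ = (1 / 16) ^ (2 * S.card) := (pow_mul _ _ _).symm
          _ ≤ (1 / 16) ^ m := pow_le_pow_right_of_le_one' (by norm_num) hc.1
      · simp [hc]
    refine (measure_iUnion_fintype_le _ _).trans ((Finset.sum_le_sum fun d _ =>
      (measure_biUnion_finset_le _ _).trans (Finset.sum_le_sum (hS d))).trans (le_of_eq ?_))
    simp only [Finset.sum_const, Finset.card_univ, Fintype.card_fun, Fintype.card_fin,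
      Finset.card_powerset, Finset.card_range, nsmul_eq_mul]
    push_cast
    rw [← mul_pow, ← mul_pow]
    congr 1
    rw [← ENNReal.toReal_eq_toReal_iff' (by finiteness) (by finiteness)]
    norm_num [ENNReal.toReal_mul, ENNReal.toReal_div]
  have hev : ∀ᵐ ω ∂law G, ∀ v, ∀ᶠ m in atTop, ω ∉ E v m := ae_all_iff.2 fun v =>
    ae_eventually_notMem (ne_top_of_le_ne_top (by
      rw [ENNReal.tsum_geometric, ENNReal.inv_ne_top]
      norm_num) (ENNReal.tsum_le_tsum (hE v)))
  filter_upwards [hev, ae_pos G h0] with ω hω hpos v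
  obtain ⟨M, hM⟩ := eventually_atTop.1 (hω v)
  refine ⟨M, fun m hm p hp hw hi => ?_⟩
  set S := (range m).filter fun k => ω s(p k, p (k + 1)) ≤ a with hS
  have hlow : 2 * S.card < m := by
    by_contra hcon
    obtain ⟨d, hd⟩ := exists_walkOf hw
    subst hp
    refine hM m hm ?_
    simp only [E, Set.mem_iUnion, Set.mem_ofPred_eq]
    refine ⟨d, S, Finset.mem_powerset.2 (Finset.filter_subset _ _),
      ⟨not_lt.1 hcon, fun i hi' j hj h => hi hi' hj (by rw [← hd i hi', ← hd j hj, h])⟩,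
      fun k hk => ?_⟩
    obtain ⟨hk1, hk2⟩ := Finset.mem_filter.1 hk
    rw [Finset.mem_range] at hk1
    rwa [hd k hk1.le, hd (k + 1) hk1]
  have hc : S.card + ((range m).filter fun k => ¬ ω s(p k, p (k + 1)) ≤ a).card = m := by
    rw [hS, Finset.card_filter_add_card_filter_not, Finset.card_range]
  have hhalf : (m : ℝ) ≤ 2 * (((range m).filter fun k => ¬ ω s(p k, p (k + 1)) ≤ a).card : ℝ) := by
    have : m ≤ 2 * ((range m).filter fun k => ¬ ω s(p k, p (k + 1)) ≤ a).card := by omega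
    exact_mod_cast this
  calc a / 2 * m ≤ ∑ _k ∈ (range m).filter (fun k => ¬ ω s(p k, p (k + 1)) ≤ a), a := by
        rw [Finset.sum_const, nsmul_eq_mul]; nlinarith
    _ ≤ ∑ k ∈ (range m).filter (fun k => ¬ ω s(p k, p (k + 1)) ≤ a), ω s(p k, p (k + 1)) :=
        Finset.sum_le_sum fun k hk => (not_le.1 (Finset.mem_filter.1 hk).2).le
    _ ≤ cost ω p m := Finset.sum_le_sum_of_subset_of_nonneg (Finset.filter_subset _ _)
        fun k _ _ => (hpos _).le

/-- Any two vertices are joined by a unique self-avoiding geodesic. -/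
theorem ae_geodesic (h0 : G (Set.Iio 0) = 0) :
    ∀ᵐ ω ∂law G, (∀ e, 0 < ω e) ∧ ∀ x y : V,
      (∃ (p : ℕ → V) (m : ℕ), p 0 = x ∧ p m = y ∧ IsWalk p m ∧ Set.InjOn p (Set.Iic m) ∧
        Geo ω p m) ∧
      ∀ (p q : ℕ → V) (m l : ℕ), p 0 = x → p m = y → IsWalk p m → Set.InjOn p (Set.Iic m) →
        Geo ω p m → q 0 = x → q l = y → IsWalk q l → Set.InjOn q (Set.Iic l) → Geo ω q l →
          m = l ∧ ∀ k ≤ m, p k = q k := by
  obtain ⟨a, ha, hlong⟩ := ae_long_expensive G h0
  filter_upwards [hlong, ae_pos G h0, ae_sums_ne G] with ω hω hpos hne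
  refine ⟨hpos, fun x y => ⟨?_, ?_⟩⟩
  · obtain ⟨q₀, l₀, hq00, hq0l, hq0w⟩ := exists_walk x y
    obtain ⟨M, hM⟩ := hω x
    set C := cost ω q₀ l₀
    set N : ℕ := M + ⌈C / a⌉₊ + 1
    have hfin : {c : Σ m : Fin N, Fin m → Fin 4 | walkOf x c.2 c.1 = y ∧
        IsWalk (walkOf x c.2) c.1 ∧ Set.InjOn (walkOf x c.2) (Set.Iic (c.1 : ℕ)) ∧
        cost ω (walkOf x c.2) c.1 ≤ C}.Finite := Set.toFinite _
    have code : ∀ (p : ℕ → V) (m : ℕ), p 0 = x → p m = y → IsWalk p m →
        Set.InjOn p (Set.Iic m) → cost ω p m ≤ C →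
        ∃ c ∈ hfin.toFinset, cost ω (walkOf x c.2) (c.1 : ℕ) = cost ω p m := by
      intro p m hp0 hpm hpw hpi hpc
      have hmN : m < N := by
        by_contra h
        have h1 := hM m (by omega) p hp0 hpw hpi
        have h2 : C / a ≤ (⌈C / a⌉₊ : ℝ) := Nat.le_ceil _
        have h3 : ((⌈C / a⌉₊ : ℕ) : ℝ) + 1 ≤ m := by
          have : ⌈C / a⌉₊ + 1 ≤ m := by omega
          exact_mod_cast this
        rw [div_le_iff₀ ha] at h2
        nlinarith
      obtain ⟨d, hd⟩ := exists_walkOf hpw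
      rw [hp0] at hd
      refine ⟨⟨⟨m, hmN⟩, d⟩, hfin.mem_toFinset.2 ⟨by rw [hd m le_rfl, hpm], fun k hk => ?_,
        fun i hi j hj h => hpi hi hj (by rw [← hd i hi, ← hd j hj, h]), ?_⟩, cost_congr hd⟩
      · rw [hd k hk.le, hd (k + 1) hk]; exact hpw k hk
      · exact (cost_congr hd).le.trans hpc
    obtain ⟨p₀, m₀, a0, a1, a2, a3, a4⟩ := exists_simple (fun e => (hpos e).le) l₀ q₀ hq0w
    obtain ⟨c₀, hc₀, -⟩ := code p₀ m₀ (a0.trans hq00) (a1.trans hq0l) a2 a3 a4
    obtain ⟨c, hc, hmin⟩ := Finset.exists_min_image hfin.toFinset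
      (fun c => cost ω (walkOf x c.2) (c.1 : ℕ)) ⟨c₀, hc₀⟩
    obtain ⟨hy, hw, hi, hcC⟩ := hfin.mem_toFinset.1 hc
    refine ⟨walkOf x c.2, c.1, rfl, hy, hw, hi, fun q l hq0 hql hqw => ?_⟩
    obtain ⟨p, m, b0, b1, b2, b3, b4⟩ := exists_simple (fun e => (hpos e).le) l q hqw
    by_cases hpc : cost ω p m ≤ C
    · obtain ⟨c', hc', he⟩ := code p m (b0.trans hq0) (b1.trans (hql.trans hy)) b2 b3 hpc
      exact ((hmin c' hc').trans (le_of_eq he)).trans b4
    · linarith
  · intro p q m l hp0 hpm hpw hpi hpg hq0 hql hqw hqi hqg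
    refine eq_of_edgesOf hpi hqi (hp0.trans hq0.symm) ?_
    by_contra h
    refine hne _ _ h ?_
    rw [sum_edgesOf hpi, sum_edgesOf hqi]
    exact le_antisymm (hpg q l (hq0.trans hp0.symm) (hql.trans hpm.symm) hqw)
      (hqg p m (hp0.trans hq0.symm) (hpm.trans hql.symm) hpw)

end Vale.Agent.P158.Full
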