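import Vale.Agent.P158.Tube.Basic

/-!
# Planar crossing of lattice walks

The parity of the crossings of a horizontal half-line with a closed walk gives a discrete winding
number. As a consequence, two walks in a box whose endpoints interlace on the boundary share a
vertex.
-/

noncomputable section

namespace Vale.Agent.P158.Cross

open Finset Vale.Agent.P158.Tube
open scoped Classical

theorem adj_cases {u v : V} (h : Adj u v) :
    (v.1 = u.1 + 1 ∧ v.2 = u.2) ∨ (v.1 = u.1 - 1 ∧ v.2 = u.2) ∨
      (v.1 = u.1 ∧ v.2 = u.2 + 1) ∨ (v.1 = u.1 ∧ v.2 = u.2 - 1) := by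
  have h : |u.1 - v.1| + |u.2 - v.2| = 1 := h
  rcases abs_cases (u.1 - v.1) with ⟨e1, _⟩ | ⟨e1, _⟩ <;>
    rcases abs_cases (u.2 - v.2) with ⟨e2, _⟩ | ⟨e2, _⟩ <;> omega

theorem adj_of_cases {u v : V}
    (h : (v.1 = u.1 + 1 ∧ v.2 = u.2) ∨ (v.1 = u.1 - 1 ∧ v.2 = u.2) ∨
      (v.1 = u.1 ∧ v.2 = u.2 + 1) ∨ (v.1 = u.1 ∧ v.2 = u.2 - 1)) : Adj u v := by
  unfold Adj
  rcases h with ⟨a, b⟩ | ⟨a, b⟩ | ⟨a, b⟩ | ⟨a, b⟩ <;> rw [a, b] <;> simp

/-- The edge from `(x, y)` to the right. -/
def hedge (x y : ℤ) : Sym2 V := s((x, y), (x + 1, y))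

/-- The edge from `(x, y)` upwards. -/
def vedge (x y : ℤ) : Sym2 V := s((x, y), (x, y + 1))

/-- The step from `u` to `v` crosses the half-line to the right of the face at `(x, y)`. -/
def ray (u v : V) (x y : ℤ) : ZMod 2 :=
  if u.1 = v.1 ∧ x < u.1 ∧ min u.2 v.2 = y ∧ u.2 ≠ v.2 then 1 else 0

/-- The parity winding of a closed walk around the face with lower left corner `(x, y)`. -/
def wind (p : ℕ → V) (m : ℕ) (x y : ℤ) : ZMod 2 := ∑ t ∈ range m, ray (p t) (p (t + 1)) x y

/-- The parity of the number of uses of an edge. -/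
def uses (p : ℕ → V) (m : ℕ) (e : Sym2 V) : ZMod 2 :=
  ∑ t ∈ range m, if s(p t, p (t + 1)) = e then 1 else 0

theorem mem_hedge (x y : ℤ) : (x, y) ∈ hedge x y := Sym2.mem_mk_left _ _

theorem mem_vedge (x y : ℤ) : (x, y) ∈ vedge x y := Sym2.mem_mk_left _ _

variable {p : ℕ → V} {m : ℕ}

theorem sum_diff_eq_zero (f : V → ZMod 2) (hc : p 0 = p m) :
    ∑ t ∈ range m, (f (p (t + 1)) - f (p t)) = 0 := by
  rw [Finset.sum_range_sub (fun t => f (p t)), hc, sub_self]

theorem wind_up (hp : IsWalk p m) (hc : p 0 = p m) (x y : ℤ) :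
    wind p m x y = wind p m x (y - 1) + uses p m (hedge x y) := by
  let f : V → ZMod 2 := fun w => if w.2 = y ∧ x < w.1 then 1 else 0
  calc wind p m x y = ∑ t ∈ range m, (ray (p t) (p (t + 1)) x (y - 1) +
        (if s(p t, p (t + 1)) = hedge x y then 1 else 0) + (f (p (t + 1)) - f (p t))) := by
        refine Finset.sum_congr rfl fun t ht => ?_
        have h := adj_cases (hp t (Finset.mem_range.1 ht))
        simp only [ray, f, hedge, Sym2.eq_iff, Prod.ext_iff]
        split_ifs <;> first | omega | decide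
    _ = _ := by
      rw [Finset.sum_add_distrib, Finset.sum_add_distrib, sum_diff_eq_zero f hc, add_zero]
      rfl

theorem wind_left (hp : IsWalk p m) (x y : ℤ) :
    wind p m (x - 1) y = wind p m x y + uses p m (vedge x y) := by
  simp only [wind, uses, ← Finset.sum_add_distrib]
  refine Finset.sum_congr rfl fun t ht => ?_
  have h := adj_cases (hp t (Finset.mem_range.1 ht))
  simp only [ray, vedge, Sym2.eq_iff, Prod.ext_iff]
  split_ifs <;> first | omega | decide

theorem uses_eq_zero {w : V} {e : Sym2 V} (he : w ∈ e) (hw : ∀ t ≤ m, p t ≠ w) :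
    uses p m e = 0 := by
  refine Finset.sum_eq_zero fun t ht => if_neg fun h => ?_
  have ht := Finset.mem_range.1 ht
  rw [← h, Sym2.mem_iff] at he
  rcases he with rfl | rfl
  · exact hw t ht.le rfl
  · exact hw (t + 1) ht rfl

theorem wind_zero_right {x y : ℤ} (h : ∀ t ≤ m, (p t).1 ≤ x) : wind p m x y = 0 :=
  Finset.sum_eq_zero fun t ht => if_neg fun hh =>
    (h t (Finset.mem_range.1 ht).le).not_gt hh.2.1

theorem wind_zero_below {x y : ℤ} (h : ∀ t ≤ m, y < (p t).2) : wind p m x y = 0 :=
  Finset.sum_eq_zero fun t ht => if_neg fun hh => by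
    have := h t (Finset.mem_range.1 ht).le
    have := h (t + 1) (Finset.mem_range.1 ht)
    omega

theorem wind_zero_above {x y : ℤ} (h : ∀ t ≤ m, (p t).2 ≤ y) : wind p m x y = 0 :=
  Finset.sum_eq_zero fun t ht => if_neg fun hh => by
    have := h t (Finset.mem_range.1 ht).le
    have := h (t + 1) (Finset.mem_range.1 ht)
    omega

theorem wind_zero_left (hp : IsWalk p m) (hc : p 0 = p m) {x y : ℤ}
    (h : ∀ t ≤ m, x < (p t).1) : wind p m x y = 0 := by
  let f : V → ZMod 2 := fun w => if w.2 ≤ y then 1 else 0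
  refine Eq.trans (Finset.sum_congr rfl fun t ht => ?_) (sum_diff_eq_zero f hc)
  have h1 := adj_cases (hp t (Finset.mem_range.1 ht))
  have h2 := h t (Finset.mem_range.1 ht).le
  simp only [ray, f]
  split_ifs <;> first | omega | decide

theorem wind_adj (hp : IsWalk p m) (hc : p 0 = p m) {u v : V} (huv : Adj u v)
    (hu : ∀ t ≤ m, p t ≠ u) (hv : ∀ t ≤ m, p t ≠ v) :
    wind p m u.1 u.2 = wind p m v.1 v.2 := by
  obtain ⟨a, b⟩ := u
  obtain ⟨c, d⟩ := v
  rcases adj_cases huv with ⟨e1, e2⟩ | ⟨e1, e2⟩ | ⟨e1, e2⟩ | ⟨e1, e2⟩ <;>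
    simp only at e1 e2 <;> rw [e1, e2] at hv ⊢
  · have h := wind_left hp (a + 1) b
    rw [add_sub_cancel_right, uses_eq_zero (mem_vedge _ _) hv, add_zero] at h
    exact h
  · simp only
    rw [wind_left hp a b, uses_eq_zero (mem_vedge _ _) hu, add_zero]
  · have h := wind_up hp hc a (b + 1)
    rw [add_sub_cancel_right, uses_eq_zero (mem_hedge _ _) hv, add_zero] at h
    exact h.symm
  · simp only
    rw [wind_up hp hc a b, uses_eq_zero (mem_hedge _ _) hu, add_zero]

theorem wind_walk (hp : IsWalk p m) (hc : p 0 = p m) {q : ℕ → V} {l : ℕ} (hq : IsWalk q l)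
    (hav : ∀ s ≤ l, ∀ t ≤ m, p t ≠ q s) :
    wind p m (q 0).1 (q 0).2 = wind p m (q l).1 (q l).2 := by
  induction l with
  | zero => rfl
  | succ l ih =>
    rw [ih (fun k hk => hq k (by omega)) (fun s hs => hav s (by omega))]
    exact wind_adj hp hc (hq l (by omega)) (hav l (by omega)) (hav (l + 1) le_rfl)

/-- The boundary cycle of the box `[0, n] × [0, m]`, counterclockwise from the origin. -/
def frame (n m t : ℕ) : V :=
  if t ≤ n then ((t : ℤ), 0)
  else if t ≤ n + m then ((n : ℤ), (t : ℤ) - n)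
  else if t ≤ 2 * n + m then (2 * (n : ℤ) + m - t, (m : ℤ))
  else (0, 2 * (n : ℤ) + 2 * m - t)

/-- Strictly inside the box. -/
def Inside (n m : ℕ) (v : V) : Prop := 0 < v.1 ∧ v.1 < n ∧ 0 < v.2 ∧ v.2 < m

theorem frame_adj {n m t : ℕ} (ht : t < 2 * n + 2 * m) :
    Adj (frame n m t) (frame n m (t + 1)) := by
  apply adj_of_cases
  simp only [frame]
  split_ifs <;> omega

theorem frame_spec {n m t : ℕ} (ht : t ≤ 2 * n + 2 * m) :
    ((frame n m t).1 = t ∧ (frame n m t).2 = 0 ∧ t ≤ n) ∨
    ((frame n m t).1 = n ∧ (frame n m t).2 = (t : ℤ) - n ∧ n < t ∧ t ≤ n + m) ∨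
    ((frame n m t).1 = 2 * (n : ℤ) + m - t ∧ (frame n m t).2 = m ∧ n + m < t ∧ t ≤ 2 * n + m) ∨
    ((frame n m t).1 = 0 ∧ (frame n m t).2 = 2 * (n : ℤ) + 2 * m - t ∧ 2 * n + m < t) := by
  unfold frame
  split_ifs <;> omega

theorem frame_inj {n m t t' : ℕ} (hn : 0 < n) (hm : 0 < m) (ht : t < 2 * n + 2 * m)
    (ht' : t' < 2 * n + 2 * m) (h : frame n m t = frame n m t') : t = t' := by
  have a := frame_spec (n := n) (m := m) ht.le
  have b := frame_spec (n := n) (m := m) ht'.le
  rw [h] at a
  omega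

theorem not_inside_frame {n m t : ℕ} (ht : t ≤ 2 * n + 2 * m) : ¬ Inside n m (frame n m t) := by
  rintro ⟨h1, h2, h3, h4⟩
  have := frame_spec (n := n) (m := m) ht
  omega

/-- A walk that enters the box from the boundary point number `i` and ends at number `k`. -/
def Chord (n m : ℕ) (p : ℕ → V) (l i k : ℕ) : Prop :=
  IsWalk p l ∧ 2 ≤ l ∧ p 0 = frame n m i ∧ p l = frame n m k ∧
    ∀ t, 0 < t → t < l → Inside n m (p t)

theorem eq_one {a : ZMod 2} (h : (0 : ZMod 2) = a + 1) : a = 1 := by
  revert h; revert a; decide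

/-- Two chords with interlaced endpoints share a vertex strictly inside the box. -/
theorem chord_cross {n m : ℕ} {p q : ℕ → V} {a b i j k l : ℕ} (hp : Chord n m p a i k)
    (hq : Chord n m q b j l) (hij : i < j) (hjk : j < k) (hkl : k < l)
    (hl : l < 2 * n + 2 * m) :
    ∃ t s, 0 < t ∧ t < a ∧ 0 < s ∧ s < b ∧ p t = q s := by
  obtain ⟨hpw, ha, hp0, hpa, hpin⟩ := hp
  obtain ⟨hqw, hb, hq0, hqb, hqin⟩ := hq
  have hq1 := hqin 1 one_pos (by omega)
  have hn : 0 < n := by have := hq1.1; have := hq1.2.1; omega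
  have hm : 0 < m := by have := hq1.2.2.1; have := hq1.2.2.2; omega
  by_contra hne
  push Not at hne
  set C : ℕ → V := fun t => if t ≤ a then p t else frame n m (k - (t - a)) with hC
  set M := a + (k - i) with hM
  have hC1 : ∀ t ≤ a, C t = p t := fun t ht => if_pos ht
  have hC2 : ∀ t, a ≤ t → C t = frame n m (k - (t - a)) := fun t ht => by
    rcases ht.eq_or_lt with rfl | ht
    · rw [hC1 a le_rfl, hpa, Nat.sub_self, Nat.sub_zero]
    · exact if_neg (by omega)
  have hc : C 0 = C M := by
    rw [hC1 0 (by omega), hC2 M (by omega), hp0]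
    congr 1
    omega
  have hCw : IsWalk C M := by
    intro t ht
    by_cases h : t < a
    · rw [hC1 t h.le, hC1 (t + 1) h]
      exact hpw t h
    · rw [hC2 t (by omega), hC2 (t + 1) (by omega)]
      have h2 := (frame_adj (n := n) (m := m) (t := k - (t + 1 - a)) (by omega)).symm
      rwa [show k - (t + 1 - a) + 1 = k - (t - a) by omega] at h2
  -- the vertices of the closed walk
  have hCv : ∀ t ≤ M, (∃ s, 0 < s ∧ s < a ∧ C t = p s) ∨
      ∃ r, i ≤ r ∧ r ≤ k ∧ C t = frame n m r := by
    intro t ht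
    by_cases h : t ≤ a
    · rcases Nat.eq_zero_or_pos t with rfl | h0
      · exact Or.inr ⟨i, le_rfl, by omega, (hC1 0 h).trans hp0⟩
      rcases h.eq_or_lt with rfl | h1
      · exact Or.inr ⟨k, by omega, le_rfl, (hC1 t le_rfl).trans hpa⟩
      · exact Or.inl ⟨t, h0, h1, hC1 t h⟩
    · exact Or.inr ⟨k - (t - a), by omega, by omega, hC2 t (by omega)⟩
  have hbox : ∀ t ≤ M, 0 ≤ (C t).1 ∧ (C t).1 ≤ n ∧ 0 ≤ (C t).2 ∧ (C t).2 ≤ m := by
    intro t ht
    rcases hCv t ht with ⟨s, h1, h2, e⟩ | ⟨r, h1, h2, e⟩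
    · obtain ⟨x1, x2, x3, x4⟩ := hpin s h1 h2
      rw [e]
      omega
    · have := frame_spec (n := n) (m := m) (t := r) (by omega)
      rw [e]
      omega
  have hqfree : ∀ s, 0 < s → s < b → ∀ t ≤ M, C t ≠ q s := by
    intro s hs hsb t ht e
    rcases hCv t ht with ⟨r, h1, h2, e'⟩ | ⟨r, h1, h2, e'⟩
    · exact hne r s h1 h2 hs hsb (e'.symm.trans e)
    · exact not_inside_frame (n := n) (m := m) (t := r) (by omega)
        (by rw [← e', e]; exact hqin s hs hsb)
  have hlfree : ∀ t ≤ M, C t ≠ frame n m l := by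
    intro t ht e
    rcases hCv t ht with ⟨r, h1, h2, e'⟩ | ⟨r, h1, h2, e'⟩
    · exact not_inside_frame hl.le (by rw [← e, e']; exact hpin r h1 h2)
    · have := frame_inj hn hm (by omega) hl (e'.symm.trans e)
      omega
  -- the winding vanishes at the last point of `q`
  have hzero : wind C M (frame n m l).1 (frame n m l).2 = 0 := by
    rcases frame_spec (n := n) (m := m) hl.le with
      ⟨e1, e2, -⟩ | ⟨e1, e2, -⟩ | ⟨e1, e2, -⟩ | ⟨e1, e2, -⟩
    · rw [e2, wind_up hCw hc, uses_eq_zero (w := frame n m l) ?_ hlfree, add_zero]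
      · exact wind_zero_below fun t ht => by have := hbox t ht; omega
      · rw [hedge, show ((frame n m l).1, (0 : ℤ)) = frame n m l from Prod.ext rfl e2.symm]
        exact Sym2.mem_mk_left _ _
    · exact wind_zero_right fun t ht => by rw [e1]; exact (hbox t ht).2.1
    · exact wind_zero_above fun t ht => by rw [e2]; exact (hbox t ht).2.2.2
    · rw [e1]
      have h := wind_left hCw 0 (frame n m l).2
      rw [uses_eq_zero (w := frame n m l) ?_ hlfree, add_zero] at h
      · rw [← h]
        exact wind_zero_left hCw hc fun t ht => by have := hbox t ht; omega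
      · rw [vedge, show ((0 : ℤ), (frame n m l).2) = frame n m l from Prod.ext e1.symm rfl]
        exact Sym2.mem_mk_left _ _
  -- the winding is one at the first inner point of `q`
  have hone : wind C M (q 1).1 (q 1).2 = 1 := by
    have huse : ∀ r, i ≤ r → r < k → uses C M s(frame n m r, frame n m (r + 1)) = 1 := by
      intro r hr1 hr2
      rw [uses, Finset.sum_eq_single (a + (k - (r + 1)))]
      · rw [hC2 _ (by omega), hC2 _ (by omega),
          show k - (a + (k - (r + 1)) - a) = r + 1 by omega,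
          show k - (a + (k - (r + 1)) + 1 - a) = r by omega, if_pos Sym2.eq_swap]
      · intro t ht hne'
        have ht := Finset.mem_range.1 ht
        refine if_neg fun e => ?_
        by_cases h : t < a
        · rw [hC1 t h.le, hC1 (t + 1) h] at e
          have hin : Inside n m (p t) ∨ Inside n m (p (t + 1)) := by
            rcases Nat.eq_zero_or_pos t with rfl | h0
            · exact Or.inr (hpin 1 one_pos (by omega))
            · exact Or.inl (hpin t h0 h)
          rcases Sym2.eq_iff.1 e with ⟨e1, e2⟩ | ⟨e1, e2⟩ <;> rw [e1, e2] at hin <;>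
            rcases hin with hin | hin <;> exact not_inside_frame (by omega) hin
        · rw [hC2 t (by omega), hC2 (t + 1) (by omega)] at e
          rcases Sym2.eq_iff.1 e with ⟨e1, e2⟩ | ⟨e1, e2⟩
          · have := frame_inj hn hm (by omega) (by omega) e1
            have := frame_inj hn hm (by omega) (by omega) e2
            omega
          · have := frame_inj hn hm (by omega) (by omega) e1
            omega
      · intro h
        exact absurd (Finset.mem_range.2 (by omega)) h
    have hadj := adj_cases (hqw 0 (by omega))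
    rw [hq0] at hadj
    obtain ⟨x1, x2, x3, x4⟩ := hq1
    have hfree := hqfree 1 one_pos (by omega)
    rw [show (0 + 1 : ℕ) = 1 from rfl] at hadj
    rcases frame_spec (n := n) (m := m) (t := j) (by omega) with
      ⟨e1, e2, e3⟩ | ⟨e1, e2, e3⟩ | ⟨e1, e2, e3⟩ | ⟨e1, e2, e3⟩
    · -- bottom
      obtain ⟨f1, f2⟩ : (q 1).1 = j ∧ (q 1).2 = 1 := by omega
      rw [wind_up hCw hc, uses_eq_zero (w := q 1) (mem_hedge (q 1).1 (q 1).2) hfree, add_zero, f1, f2,
        sub_self, wind_up hCw hc, wind_zero_below (fun t ht => by have := hbox t ht; omega),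
        zero_add]
      rw [show hedge (j : ℤ) 0 = s(frame n m j, frame n m (j + 1)) from ?_]
      · exact huse j hij.le hjk
      have g := frame_spec (n := n) (m := m) (t := j + 1) (by omega)
      simp only [hedge, Sym2.eq_iff, Prod.ext_iff]
      left
      omega
    · -- right
      obtain ⟨f1, f2⟩ : (q 1).1 = (n : ℤ) - 1 ∧ (q 1).2 = (j : ℤ) - n := by omega
      rw [f1, f2, wind_left hCw, wind_zero_right (fun t ht => (hbox t ht).2.1), zero_add]
      rw [show vedge (n : ℤ) ((j : ℤ) - n) = s(frame n m j, frame n m (j + 1)) from ?_]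
      · exact huse j hij.le hjk
      have g := frame_spec (n := n) (m := m) (t := j + 1) (by omega)
      simp only [vedge, Sym2.eq_iff, Prod.ext_iff]
      left
      omega
    · -- top
      obtain ⟨f1, f2⟩ : (q 1).1 = 2 * (n : ℤ) + m - j ∧ (q 1).2 = (m : ℤ) - 1 := by omega
      have h := wind_up hCw hc (q 1).1 (m : ℤ)
      rw [wind_zero_above (fun t ht => (hbox t ht).2.2.2), f1,
        show hedge (2 * (n : ℤ) + m - j) m = s(frame n m (j - 1), frame n m (j - 1 + 1)) from ?_,
        huse (j - 1) (by omega) (by omega)] at h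
      · rw [f1, f2]
        exact eq_one h
      have g := frame_spec (n := n) (m := m) (t := j - 1) (by omega)
      rw [show j - 1 + 1 = j by omega]
      simp only [hedge, Sym2.eq_iff, Prod.ext_iff]
      right
      omega
    · -- left
      obtain ⟨f1, f2⟩ : (q 1).1 = 1 ∧ (q 1).2 = 2 * (n : ℤ) + 2 * m - j := by omega
      have h0 := wind_left hCw 0 (q 1).2
      rw [wind_zero_left hCw hc (fun t ht => by have := hbox t ht; omega)] at h0
      have h1 := wind_left hCw (q 1).1 (q 1).2
      rw [uses_eq_zero (w := q 1) (mem_vedge (q 1).1 (q 1).2) hfree, add_zero, f1, sub_self] at h1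
      rw [h1, f2, show vedge 0 (2 * (n : ℤ) + 2 * m - j) =
          s(frame n m (j - 1), frame n m (j - 1 + 1)) from ?_,
        huse (j - 1) (by omega) (by omega)] at h0
      · rw [f1, f2]
        exact eq_one h0
      have g := frame_spec (n := n) (m := m) (t := j - 1) (by omega)
      rw [show j - 1 + 1 = j by omega]
      simp only [vedge, Sym2.eq_iff, Prod.ext_iff]
      right
      omega
  -- the winding is constant along `q`
  have hconst : wind C M (q 1).1 (q 1).2 = wind C M (q (b - 1)).1 (q (b - 1)).2 := by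
    have h := wind_walk hCw hc (q := fun s => q (1 + s)) (l := b - 2)
      (fun s hs => hqw (1 + s) (by omega)) (fun s hs => hqfree (1 + s) (by omega) (by omega))
    simpa [show 1 + (b - 2) = b - 1 by omega] using h
  have hlast : wind C M (q (b - 1)).1 (q (b - 1)).2 = wind C M (frame n m l).1 (frame n m l).2 := by
    refine wind_adj hCw hc ?_ (hqfree (b - 1) (by omega) (by omega)) hlfree
    have h := hqw (b - 1) (by omega)
    rwa [show b - 1 + 1 = b by omega, hqb] at h
  rw [hconst, hlast, hzero] at hone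
  exact zero_ne_one hone

end Vale.Agent.P158.Cross
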