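import Vale.Agent.P158.Full.Cross

/-!
# Walks in a closed box

Walks inside a closed box with interlaced endpoints on the boundary share a vertex, and exchanging
their halves at that vertex keeps the total cost. This is the four-point inequality of the passage
times restricted to the box.
-/

noncomputable section

namespace Vale.Agent.P158.Cross

open Finset Vale.Agent.P158.Tube
open scoped Classical

/-- In the closed box. -/
def InBox (n m : ℕ) (v : V) : Prop := 0 ≤ v.1 ∧ v.1 ≤ n ∧ 0 ≤ v.2 ∧ v.2 ≤ m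

theorem inBox_frame {n m t : ℕ} (ht : t ≤ 2 * n + 2 * m) : InBox n m (frame n m t) := by
  have := frame_spec (n := n) (m := m) ht
  unfold InBox
  omega

/-- The index of the boundary point outside a boundary point. -/
def out (n m t : ℕ) : ℕ :=
  if t ≤ n then t + 1 else if t ≤ n + m then t + 3 else if t ≤ 2 * n + m then t + 5 else t + 7

theorem out_lt {n m t t' : ℕ} (h : t < t') : out n m t < out n m t' := by
  unfold out
  split_ifs <;> omega

theorem out_bound {n m t : ℕ} (h : t < 2 * n + 2 * m) :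
    out n m t < 2 * (n + 2) + 2 * (m + 2) := by
  unfold out
  split_ifs <;> omega

theorem frame_out {n m t : ℕ} (ht : t < 2 * n + 2 * m) :
    Adj (frame (n + 2) (m + 2) (out n m t)) ((frame n m t).1 + 1, (frame n m t).2 + 1) := by
  have h := frame_spec (n := n) (m := m) ht.le
  have g := frame_spec (n := n + 2) (m := m + 2) (out_bound ht).le
  apply adj_of_cases
  simp only [out] at g ⊢
  split_ifs at g ⊢ <;> omega

/-- Extend a walk of the box to a chord of the bigger box. -/
def extend (n m : ℕ) (p : ℕ → V) (a i k : ℕ) : ℕ → V := fun s =>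
  if s = 0 then frame (n + 2) (m + 2) (out n m i)
  else if s ≤ a + 1 then ((p (s - 1)).1 + 1, (p (s - 1)).2 + 1)
  else frame (n + 2) (m + 2) (out n m k)

theorem extend_mid (n m : ℕ) (p : ℕ → V) (a i k : ℕ) {s : ℕ} (hs : s ≤ a) :
    extend n m p a i k (s + 1) = ((p s).1 + 1, (p s).2 + 1) := by
  unfold extend
  rw [if_neg (by omega), if_pos (by omega), Nat.add_sub_cancel]

theorem chord_extend {n m : ℕ} {p : ℕ → V} {a i k : ℕ} (hp : IsWalk p a)
    (hbox : ∀ t ≤ a, InBox n m (p t)) (h0 : p 0 = frame n m i) (ha : p a = frame n m k)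
    (hi : i < 2 * n + 2 * m) (hk : k < 2 * n + 2 * m) :
    Chord (n + 2) (m + 2) (extend n m p a i k) (a + 2) (out n m i) (out n m k) := by
  refine ⟨?_, by omega, if_pos rfl, ?_, ?_⟩
  · intro s hs
    rcases Nat.eq_zero_or_pos s with rfl | hs0
    · rw [extend_mid n m p a i k (Nat.zero_le a), h0]
      exact frame_out hi
    obtain ⟨u, rfl⟩ : ∃ u, s = u + 1 := ⟨s - 1, by omega⟩
    rw [extend_mid n m p a i k (by omega : u ≤ a)]
    rcases (show u ≤ a by omega).eq_or_lt with rfl | hu
    · rw [show extend n m p u i k (u + 1 + 1) = frame (n + 2) (m + 2) (out n m k) by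
        unfold extend; rw [if_neg (by omega), if_neg (by omega)], ha]
      exact (frame_out hk).symm
    · rw [extend_mid n m p a i k (by omega : u + 1 ≤ a)]
      have h := adj_cases (hp u hu)
      apply adj_of_cases
      simp only
      omega
  · unfold extend
    rw [if_neg (by omega), if_neg (by omega)]
  · intro s h1 h2
    obtain ⟨u, rfl⟩ : ∃ u, s = u + 1 := ⟨s - 1, by omega⟩
    obtain ⟨b1, b2, b3, b4⟩ := hbox u (by omega)
    rw [extend_mid n m p a i k (by omega : u ≤ a)]
    refine ⟨?_, ?_, ?_, ?_⟩ <;> simp only <;> push_cast <;> omega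

/-- Two walks of a closed box with interlaced endpoints on the boundary share a vertex. -/
theorem box_cross {n m : ℕ} {p q : ℕ → V} {a b i j k l : ℕ} (hp : IsWalk p a) (hq : IsWalk q b)
    (hpb : ∀ t ≤ a, InBox n m (p t)) (hqb : ∀ t ≤ b, InBox n m (q t))
    (hp0 : p 0 = frame n m i) (hpa : p a = frame n m k) (hq0 : q 0 = frame n m j)
    (hql : q b = frame n m l) (hij : i < j) (hjk : j < k) (hkl : k < l)
    (hl : l < 2 * n + 2 * m) : ∃ t ≤ a, ∃ s ≤ b, p t = q s := by
  obtain ⟨t, s, t0, ta, s0, sb, e⟩ := chord_cross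
    (chord_extend hp hpb hp0 hpa (by omega) (by omega))
    (chord_extend hq hqb hq0 hql (by omega) hl)
    (out_lt hij) (out_lt hjk) (out_lt hkl) (out_bound hl)
  obtain ⟨t, rfl⟩ : ∃ u, t = u + 1 := ⟨t - 1, by omega⟩
  obtain ⟨s, rfl⟩ : ∃ u, s = u + 1 := ⟨s - 1, by omega⟩
  rw [extend_mid n m p a i k (by omega : t ≤ a), extend_mid n m q b j l (by omega : s ≤ b)] at e
  simp only [Prod.ext_iff, add_left_inj] at e
  exact ⟨t, by omega, s, by omega, Prod.ext e.1 e.2⟩

/-- Follow `p` for `t` steps and then `q` from its step `s`. -/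
def splice (p q : ℕ → V) (t s : ℕ) : ℕ → V := fun u => if u ≤ t then p u else q (s + (u - t))

theorem splice_right {p q : ℕ → V} {t s : ℕ} (h : p t = q s) (u : ℕ) :
    splice p q t s (t + u) = q (s + u) := by
  rcases Nat.eq_zero_or_pos u with rfl | hu
  · simp [splice, h]
  · unfold splice
    rw [if_neg (by omega), Nat.add_sub_cancel_left]

theorem isWalk_splice {p q : ℕ → V} {a b t s : ℕ} (hp : IsWalk p a) (hq : IsWalk q b)
    (ht : t ≤ a) (hs : s ≤ b) (h : p t = q s) : IsWalk (splice p q t s) (t + (b - s)) := by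
  intro u hu
  by_cases hut : u < t
  · unfold splice
    rw [if_pos hut.le, if_pos (show u + 1 ≤ t from hut)]
    exact hp u (by omega)
  · obtain ⟨w, rfl⟩ : ∃ w, u = t + w := ⟨u - t, by omega⟩
    rw [add_assoc, splice_right h, splice_right h]
    exact hq (s + w) (by omega)

theorem splice_mem {p q : ℕ → V} {a b t s : ℕ} {S : Set V} (hp : ∀ u ≤ a, p u ∈ S)
    (hq : ∀ u ≤ b, q u ∈ S) (ht : t ≤ a) (hs : s ≤ b) :
    ∀ u ≤ t + (b - s), splice p q t s u ∈ S := by
  intro u hu
  unfold splice
  split_ifs with h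
  · exact hp u (by omega)
  · exact hq _ (by omega)

theorem cost_splice (ω : Sym2 V → ℝ) {p q : ℕ → V} {b t s : ℕ} (hs : s ≤ b) (h : p t = q s) :
    cost ω (splice p q t s) (t + (b - s)) = cost ω p t + (cost ω q b - cost ω q s) := by
  obtain ⟨c, rfl⟩ : ∃ c, b = s + c := ⟨b - s, by omega⟩
  unfold cost
  rw [Nat.add_sub_cancel_left, Finset.sum_range_add, Finset.sum_range_add, add_sub_cancel_left]
  refine congrArg₂ (· + ·) (Finset.sum_congr rfl fun u hu => ?_)
    (Finset.sum_congr rfl fun u _ => ?_)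
  · have hu := Finset.mem_range.1 hu
    unfold splice
    rw [if_pos hu.le, if_pos (show u + 1 ≤ t from hu)]
  · rw [add_assoc t u 1, splice_right h, splice_right h, ← add_assoc]

/-- Exchanging the halves of two walks at a common vertex keeps the total cost. -/
theorem exchange (ω : Sym2 V → ℝ) {p q : ℕ → V} {a b t s : ℕ} (ht : t ≤ a) (hs : s ≤ b)
    (h : p t = q s) :
    cost ω (splice p q t s) (t + (b - s)) + cost ω (splice q p s t) (s + (a - t)) =
      cost ω p a + cost ω q b := by
  rw [cost_splice ω hs h, cost_splice ω ht h.symm]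
  ring

/-- The four-point inequality: from walks of a box joining `i` to `k` and `j` to `l`, with
`i < j < k < l` in the boundary order, there are walks of the box joining `i` to `l` and `j` to `k`,
and `i` to `j` and `l` to `k`, of the same total cost. -/
theorem four_point (ω : Sym2 V → ℝ) {n m : ℕ} {p q : ℕ → V} {a b i j k l : ℕ}
    (hp : IsWalk p a) (hq : IsWalk q b) (hpb : ∀ t ≤ a, InBox n m (p t))
    (hqb : ∀ t ≤ b, InBox n m (q t)) (hp0 : p 0 = frame n m i) (hpa : p a = frame n m k)
    (hq0 : q 0 = frame n m j) (hql : q b = frame n m l) (hij : i < j) (hjk : j < k) (hkl : k < l)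
    (hl : l < 2 * n + 2 * m) :
    (∃ r r' c c', IsWalk r c ∧ IsWalk r' c' ∧ (∀ u ≤ c, InBox n m (r u)) ∧
      (∀ u ≤ c', InBox n m (r' u)) ∧ r 0 = frame n m i ∧ r c = frame n m l ∧
      r' 0 = frame n m j ∧ r' c' = frame n m k ∧
      cost ω r c + cost ω r' c' = cost ω p a + cost ω q b) ∧
    (∃ r r' c c', IsWalk r c ∧ IsWalk r' c' ∧ (∀ u ≤ c, InBox n m (r u)) ∧
      (∀ u ≤ c', InBox n m (r' u)) ∧ r 0 = frame n m i ∧ r c = frame n m j ∧
      r' 0 = frame n m l ∧ r' c' = frame n m k ∧
      cost ω r c + cost ω r' c' = cost ω p a + cost ω q b) := by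
  obtain ⟨t, ht, s, hs, h⟩ := box_cross hp hq hpb hqb hp0 hpa hq0 hql hij hjk hkl hl
  have hend : ∀ {p q : ℕ → V} {t s b : ℕ}, s ≤ b → p t = q s →
      splice p q t s 0 = p 0 ∧ splice p q t s (t + (b - s)) = q b := fun {p q t s b} hs h =>
    ⟨if_pos (Nat.zero_le _), by rw [splice_right h, Nat.add_sub_cancel' hs]⟩
  have h' : p t = rev q b (b - s) := by
    rw [h]
    simp only [rev, Nat.sub_sub_self hs]
  have hqr : ∀ u ≤ b, InBox n m (rev q b u) := fun u _ => hqb _ (Nat.sub_le _ _)
  refine ⟨⟨splice p q t s, splice q p s t, t + (b - s), s + (a - t), isWalk_splice hp hq ht hs h,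
    isWalk_splice hq hp hs ht h.symm, splice_mem (S := {v | InBox n m v}) hpb hqb ht hs, splice_mem (S := {v | InBox n m v}) hqb hpb hs ht,
    (hend hs h).1.trans hp0, (hend hs h).2.trans hql, (hend ht h.symm).1.trans hq0,
    (hend ht h.symm).2.trans hpa, exchange ω ht hs h⟩, ?_⟩
  refine ⟨splice p (rev q b) t (b - s), splice (rev q b) p (b - s) t, t + (b - (b - s)),
    b - s + (a - t), isWalk_splice hp (isWalk_rev hq) ht (Nat.sub_le _ _) h',
    isWalk_splice (isWalk_rev hq) hp (Nat.sub_le _ _) ht h'.symm,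
    splice_mem (S := {v | InBox n m v}) hpb hqr ht (Nat.sub_le _ _), splice_mem (S := {v | InBox n m v}) hqr hpb (Nat.sub_le _ _) ht,
    (hend (Nat.sub_le _ _) h').1.trans hp0, (hend (Nat.sub_le _ _) h').2.trans ?_,
    (hend ht h'.symm).1.trans ?_, (hend ht h'.symm).2.trans hpa, ?_⟩
  · simpa [rev] using hq0
  · simpa [rev] using hql
  · rw [exchange ω ht (Nat.sub_le _ _) h', cost_rev]

end Vale.Agent.P158.Cross
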