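import Vale.Agent.P158.Full.CrossBox

/-!
# The Monge mass of box-restricted passage times

Passage times between boundary points of a box, using only walks inside the box, satisfy the
four-point inequality. Their mixed differences form an additive nonnegative mass whose value on a
rectangle is at most twice the cost of either boundary arc.
-/

noncomputable section

namespace Vale.Agent.P158.Cross

open Finset Vale.Agent.P158.Tube
open scoped Classical

variable (ω : Sym2 V → ℝ) (n m : ℕ)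

/-- The costs of the walks of the box between two boundary points. -/
def boxCosts (i k : ℕ) : Set ℝ :=
  {c | ∃ p a, IsWalk p a ∧ (∀ t ≤ a, InBox n m (p t)) ∧ p 0 = frame n m i ∧ p a = frame n m k ∧
    c = cost ω p a}

/-- The passage time inside the box between boundary points number `i` and `k`. -/
def TB (i k : ℕ) : ℝ := sInf (boxCosts ω n m i k)

/-- The cost of the boundary arc from `i` to `j`. -/
def arc (i j : ℕ) : ℝ := ∑ t ∈ Finset.Ico i j, ω s(frame n m t, frame n m (t + 1))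

/-- The mixed difference of the passage times on the rectangle `[a, a'] × [b, b']`. -/
def mass (a a' b b' : ℕ) : ℝ :=
  TB ω n m a b + TB ω n m a' b' - TB ω n m a b' - TB ω n m a' b

variable {ω n m}

theorem boxCosts_comm (i k : ℕ) : boxCosts ω n m i k = boxCosts ω n m k i := by
  refine Set.ext fun c => ?_
  constructor <;> rintro ⟨p, a, hw, hb, h0, ha, rfl⟩ <;>
    exact ⟨rev p a, a, isWalk_rev hw, fun t _ => hb _ (Nat.sub_le _ _), by simpa [rev] using ha,
      by simpa [rev] using h0, (cost_rev ω p a).symm⟩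

theorem TB_comm (i k : ℕ) : TB ω n m i k = TB ω n m k i := by
  rw [TB, TB, boxCosts_comm]

theorem arc_mem {i j : ℕ} (hij : i ≤ j) (hj : j ≤ 2 * n + 2 * m) :
    arc ω n m i j ∈ boxCosts ω n m i j := by
  refine ⟨fun u => frame n m (i + u), j - i, fun u hu => ?_,
    fun t ht => inBox_frame (by omega), rfl, by simp only [Nat.add_sub_cancel' hij], ?_⟩
  · simp only [← add_assoc]
    exact frame_adj (by omega)
  · unfold arc cost
    rw [Finset.sum_Ico_eq_sum_range]
    exact Finset.sum_congr rfl fun u _ => by rw [add_assoc]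

theorem boxCosts_nonempty {i k : ℕ} (hi : i ≤ 2 * n + 2 * m) (hk : k ≤ 2 * n + 2 * m) :
    (boxCosts ω n m i k).Nonempty := by
  rcases le_total i k with h | h
  · exact ⟨_, arc_mem h hk⟩
  · rw [boxCosts_comm]
    exact ⟨_, arc_mem h hi⟩

theorem boxCosts_bddBelow (hω : ∀ e, 0 ≤ ω e) (i k : ℕ) : BddBelow (boxCosts ω n m i k) :=
  ⟨0, by rintro c ⟨p, a, -, -, -, -, rfl⟩; exact Finset.sum_nonneg fun _ _ => hω _⟩

theorem TB_le (hω : ∀ e, 0 ≤ ω e) {i k : ℕ} {c : ℝ} (h : c ∈ boxCosts ω n m i k) :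
    TB ω n m i k ≤ c := csInf_le (boxCosts_bddBelow hω i k) h

theorem TB_nonneg (hω : ∀ e, 0 ≤ ω e) (i k : ℕ) : 0 ≤ TB ω n m i k :=
  Real.sInf_nonneg fun c hc => by
    obtain ⟨p, a, -, -, -, -, rfl⟩ := hc
    exact Finset.sum_nonneg fun _ _ => hω _

theorem le_TB {i k : ℕ} {z : ℝ} (hi : i ≤ 2 * n + 2 * m) (hk : k ≤ 2 * n + 2 * m)
    (h : ∀ c ∈ boxCosts ω n m i k, z ≤ c) : z ≤ TB ω n m i k :=
  le_csInf (boxCosts_nonempty hi hk) h

theorem TB_triangle (hω : ∀ e, 0 ≤ ω e) {i j k : ℕ} (hi : i ≤ 2 * n + 2 * m)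
    (hj : j ≤ 2 * n + 2 * m) (hk : k ≤ 2 * n + 2 * m) :
    TB ω n m i k ≤ TB ω n m i j + TB ω n m j k := by
  rw [← sub_le_iff_le_add]
  refine le_TB hi hj fun c hc => ?_
  rw [sub_le_iff_le_add, ← sub_le_iff_le_add']
  refine le_TB hj hk fun d hd => ?_
  rw [sub_le_iff_le_add']
  obtain ⟨p, a, hp, hpb, hp0, hpa, rfl⟩ := hc
  obtain ⟨q, b, hq, hqb, hq0, hqe, rfl⟩ := hd
  have h : p a = q 0 := hpa.trans hq0.symm
  refine TB_le hω ⟨splice p q a 0, a + (b - 0), isWalk_splice hp hq le_rfl (Nat.zero_le _) h,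
    splice_mem (S := {v | InBox n m v}) hpb hqb le_rfl (Nat.zero_le _),
    (if_pos (Nat.zero_le _)).trans hp0, by rw [Nat.sub_zero, splice_right h, zero_add, hqe], ?_⟩
  rw [cost_splice ω (Nat.zero_le _) h]
  simp [cost]

theorem TB_self (hω : ∀ e, 0 ≤ ω e) {i : ℕ} (hi : i ≤ 2 * n + 2 * m) : TB ω n m i i = 0 :=
  le_antisymm ((TB_le hω (arc_mem le_rfl hi)).trans (by simp [arc])) (TB_nonneg hω i i)

/-- The two four-point inequalities for interlaced boundary points. -/
theorem TB_four (hω : ∀ e, 0 ≤ ω e) {i j k l : ℕ} (hij : i < j) (hjk : j < k) (hkl : k < l)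
    (hl : l < 2 * n + 2 * m) :
    TB ω n m i l + TB ω n m j k ≤ TB ω n m i k + TB ω n m j l ∧
      TB ω n m i j + TB ω n m k l ≤ TB ω n m i k + TB ω n m j l := by
  have key : ∀ z : ℝ, (∀ p a q b, IsWalk p a → IsWalk q b → (∀ t ≤ a, InBox n m (p t)) →
      (∀ t ≤ b, InBox n m (q t)) → p 0 = frame n m i → p a = frame n m k →
      q 0 = frame n m j → q b = frame n m l → z ≤ cost ω p a + cost ω q b) →
      z ≤ TB ω n m i k + TB ω n m j l := by
    intro z hz
    rw [← sub_le_iff_le_add]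
    refine le_TB (by omega) (by omega) fun c hc => ?_
    rw [sub_le_iff_le_add, ← sub_le_iff_le_add']
    refine le_TB (by omega) hl.le fun d hd => ?_
    rw [sub_le_iff_le_add']
    obtain ⟨p, a, hp, hpb, hp0, hpa, rfl⟩ := hc
    obtain ⟨q, b, hq, hqb, hq0, hqe, rfl⟩ := hd
    exact hz p a q b hp hq hpb hqb hp0 hpa hq0 hqe
  constructor <;> refine key _ fun p a q b hp hq hpb hqb hp0 hpa hq0 hqe => ?_ <;>
    obtain ⟨⟨r, r', c, c', hr, hr', hrb, hrb', h0, hc, h0', hc', he⟩,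
      s, s', d, d', hs, hs', hsb, hsb', g0, gd, g0', gd', ge⟩ :=
      four_point ω hp hq hpb hqb hp0 hpa hq0 hqe hij hjk hkl hl
  · rw [← he]
    exact add_le_add (TB_le hω ⟨r, c, hr, hrb, h0, hc, rfl⟩)
      (TB_le hω ⟨r', c', hr', hrb', h0', hc', rfl⟩)
  · rw [← ge, TB_comm k l]
    exact add_le_add (TB_le hω ⟨s, d, hs, hsb, g0, gd, rfl⟩)
      (TB_le hω ⟨s', d', hs', hsb', g0', gd', rfl⟩)

theorem mass_nonneg (hω : ∀ e, 0 ≤ ω e) {a a' b b' : ℕ} (ha : a ≤ a') (hab : a' ≤ b) (hb : b ≤ b')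
    (hb' : b' < 2 * n + 2 * m) : 0 ≤ mass ω n m a a' b b' := by
  unfold mass
  rcases ha.eq_or_lt with rfl | ha
  · linarith
  rcases hb.eq_or_lt with rfl | hb
  · linarith
  rcases hab.eq_or_lt with rfl | hab
  · have h := TB_triangle (i := a) (j := a') (k := b') (n := n) (m := m) hω (by omega) (by omega)
      hb'.le
    rw [TB_self hω (by omega : a' ≤ 2 * n + 2 * m)]
    linarith
  · linarith [(TB_four hω ha hab hb hb').1]

theorem mass_sum_left (A : ℕ → ℕ) (K b b' : ℕ) :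
    ∑ t ∈ range K, mass ω n m (A t) (A (t + 1)) b b' = mass ω n m (A 0) (A K) b b' := by
  induction K with
  | zero => simp [mass]
  | succ K ih => rw [Finset.sum_range_succ, ih]; unfold mass; ring

theorem mass_sum_right (B : ℕ → ℕ) (K a a' : ℕ) :
    ∑ t ∈ range K, mass ω n m a a' (B t) (B (t + 1)) = mass ω n m a a' (B 0) (B K) := by
  induction K with
  | zero => simp [mass]
  | succ K ih => rw [Finset.sum_range_succ, ih]; unfold mass; ring

theorem abs_TB_sub_le (hω : ∀ e, 0 ≤ ω e) {i j k : ℕ} (hij : i ≤ j) (hj : j ≤ 2 * n + 2 * m)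
    (hk : k ≤ 2 * n + 2 * m) : |TB ω n m i k - TB ω n m j k| ≤ arc ω n m i j := by
  have h := TB_le hω (arc_mem (ω := ω) hij hj)
  have hi : i ≤ 2 * n + 2 * m := hij.trans hj
  have h1 := TB_triangle hω hi hj hk
  have h2 := TB_triangle hω hj hi hk
  rw [TB_comm j i] at h2
  rw [abs_le]
  constructor <;> linarith

/-- The mass of a rectangle is at most twice the cost of its first arc. -/
theorem mass_le_left (hω : ∀ e, 0 ≤ ω e) {a a' b b' : ℕ} (ha : a ≤ a')
    (ha' : a' ≤ 2 * n + 2 * m) (hb : b ≤ 2 * n + 2 * m) (hb' : b' ≤ 2 * n + 2 * m) :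
    mass ω n m a a' b b' ≤ 2 * arc ω n m a a' := by
  have h1 := abs_le.1 (abs_TB_sub_le hω ha ha' hb)
  have h2 := abs_le.1 (abs_TB_sub_le hω ha ha' hb')
  unfold mass
  linarith

/-- The mass of a rectangle is at most twice the cost of its second arc. -/
theorem mass_le_right (hω : ∀ e, 0 ≤ ω e) {a a' b b' : ℕ} (hb : b ≤ b')
    (ha : a ≤ 2 * n + 2 * m) (ha' : a' ≤ 2 * n + 2 * m) (hb' : b' ≤ 2 * n + 2 * m) :
    mass ω n m a a' b b' ≤ 2 * arc ω n m b b' := by
  have h1 := abs_le.1 (abs_TB_sub_le hω hb hb' ha)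
  have h2 := abs_le.1 (abs_TB_sub_le hω hb hb' ha')
  unfold mass
  rw [TB_comm a b, TB_comm a b', TB_comm a' b, TB_comm a' b']
  linarith

end Vale.Agent.P158.Cross
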